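import Mathlib
import Vale.Agent.P171.Final
import Vale.Agent.P171.Upper
import Vale.Agent.P171.Lower

/-!
P171: a stable, tempered, bounded radial pair potential on `ℝ³` with a phase transition.
-/

open Filter
open scoped Topology

namespace Vale.Agent.Results.P171.RadialPhaseTransition

open Vale.Agent.P171

/-- There is a measurable, bounded-on-compacts, stable, tempered radial pair potential on `ℝ³`,
with `|φ r| ≤ C r^(-3-ε)` at large `r`, whose pressure at `β = 1` exists for every activity and is
not differentiable at some positive activity. -/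
theorem result :
    ∃ φ : ℝ → ℝ, Measurable φ ∧ LocallyBoundedPos φ ∧ Stable φ ∧ Tempered φ ∧
      (∃ C ε R₀ : ℝ, 0 < ε ∧ ∀ r, R₀ ≤ r → |φ r| ≤ C * r ^ (-3 - ε)) ∧
      ∃ press : ℝ → ℝ, IsPressure φ 1 press ∧
        ∃ z, 0 < z ∧ ¬ DifferentiableAt ℝ press z :=
  phaseTransition upperStep lowerStep

end Vale.Agent.Results.P171.RadialPhaseTransition
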